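import Vale.Agent.P297L75.Defs

/-!
# The standard charts of the projective space
-/

set_option linter.all false

open CategoryTheory AlgebraicGeometry Opposite TopologicalSpace

namespace Vale.Agent.P297L

open MvPolynomial HomogeneousLocalization

attribute [local instance] MvPolynomial.gradedAlgebra

variable {ι : Type} [Fintype ι]

theorem X_mem_gr (i : ι) : (X i : MvPolynomial ι ℂ) ∈ gr ι 1 :=
  (mem_homogeneousSubmodule _ _).2 (isHomogeneous_X _ _)

theorem X_mem_gr' (i : ι) : (X i : MvPolynomial ι ℂ) ∈ gr ι (1 • 1) :=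
  X_mem_gr i

/-- The evaluation of a homogeneous polynomial at a multiple. -/
theorem eval₂_mul_of_mem {B : Type*} [CommRing B] (c : ℂ →+* B) (u : ι → B) (t : B)
    {n : ℕ} {a : MvPolynomial ι ℂ} (ha : a ∈ gr ι n) :
    eval₂ c (fun i => t * u i) a = t ^ n * eval₂ c u a := by
  rw [eval₂_eq', eval₂_eq', Finset.mul_sum]
  refine Finset.sum_congr rfl fun d hd => ?_
  have h1 : (mem_homogeneousSubmodule n a).1 ha = ha := rfl
  have h2 : ∑ i, d i = n := by
    have h3 := ((mem_homogeneousSubmodule n a).1 ha) (mem_support_iff.1 hd)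
    rw [← h3, Finsupp.weight_apply, Finsupp.sum_fintype _ _ (by simp)]
    exact Finset.sum_congr rfl fun i _ => by simp
  have h4 : ∏ i, (t * u i) ^ d i = t ^ n * ∏ i, u i ^ d i := by
    rw [← h2, ← Finset.prod_pow_eq_pow_sum, ← Finset.prod_mul_distrib]
    exact Finset.prod_congr rfl fun i _ => mul_pow _ _ _
  rw [h4]
  ring

/-- The constants. -/
noncomputable def cz (x : MvPolynomial ι ℂ) : ℂ →+* Away (gr ι) x :=
  (fromZeroRingHom (gr ι) _).comp (algebraMap ℂ (gr ι 0))

theorem val_cz (x : MvPolynomial ι ℂ) (c : ℂ) :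
    (cz x c).val = algebraMap (MvPolynomial ι ℂ) (Localization.Away x) (C c) := by
  rw [← Localization.mk_one_eq_algebraMap]
  rfl

/-- The fraction `x_i / x_j`. -/
noncomputable def fr (i j : ι) : Away (gr ι) (X j) :=
  Away.mk (gr ι) (X_mem_gr j) 1 (X i) (X_mem_gr' i)

theorem val_fr (i j : ι) :
    (fr (ι := ι) i j).val * algebraMap (MvPolynomial ι ℂ) (Localization.Away (X j)) (X j) =
      algebraMap (MvPolynomial ι ℂ) (Localization.Away (X j)) (X i) := by
  rw [fr, Away.val_mk, ← Localization.mk_one_eq_algebraMap, ← Localization.mk_one_eq_algebraMap,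
    Localization.mk_mul, Localization.mk_eq_mk_iff, Localization.r_iff_exists]
  refine ⟨1, ?_⟩
  simp
  ring

theorem fr_self (j : ι) : (fr j j : Away (gr ι) (X j)) = 1 := by
  apply val_injective
  rw [fr, Away.val_mk, val_one, ← Localization.mk_one, Localization.mk_eq_mk_iff,
    Localization.r_iff_exists]
  refine ⟨1, ?_⟩
  simp

/-- Every element of the chart ring is a polynomial in the `x_i / x_j`. -/
theorem exists_eval₂ (j : ι) (z : Away (gr ι) (X j)) :
    ∃ a : MvPolynomial ι ℂ, eval₂ (cz _) (fun i => fr i j) a = z := by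
  obtain ⟨n, a, ha, rfl⟩ := Away.mk_surjective (gr ι) (X_mem_gr j) z
  refine ⟨a, ?_⟩
  apply val_injective
  have ha' : a ∈ gr ι n := by
    have h1 : n • 1 = n := by simp
    exact h1 ▸ ha
  set t : Localization.Away (X j : MvPolynomial ι ℂ) :=
    algebraMap (MvPolynomial ι ℂ) _ (X j) with ht
  have htu : IsUnit t := IsLocalization.Away.algebraMap_isUnit (X j)
  let v : Away (gr ι) (X j) →+* Localization.Away (X j : MvPolynomial ι ℂ) :=
    algebraMap _ _
  have h1 := eval₂_mul_of_mem (v.comp (cz (X j))) (fun i => (fr i j).val) t ha'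
  have h2 : (eval₂ (cz _) (fun i => fr i j) a : Away (gr ι) (X j)).val =
      eval₂ (v.comp (cz (X j))) (fun i => (fr i j).val) a :=
    eval₂_comp_left v (cz (X j)) (fun i => fr i j) a
  rw [h2]
  have h4 : eval₂ (v.comp (cz (X j))) (fun i => t * (fr i j).val) a =
      algebraMap (MvPolynomial ι ℂ) _ a := by
    have h5 : (fun i => t * (fr i j).val) = fun i => algebraMap (MvPolynomial ι ℂ)
        (Localization.Away (X j)) (X i) := by
      funext i
      rw [mul_comm, val_fr]
    have h6 : v.comp (cz (X j)) = (algebraMap (MvPolynomial ι ℂ)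
        (Localization.Away (X j : MvPolynomial ι ℂ))).comp C := by
      ext c
      exact val_cz _ c
    rw [h5, h6]
    have h7 := eval₂_comp_left (algebraMap (MvPolynomial ι ℂ)
      (Localization.Away (X j : MvPolynomial ι ℂ))) C X a
    rw [eval₂_eta] at h7
    exact h7.symm
  rw [h4] at h1
  have h8 : (Away.mk (gr ι) (X_mem_gr j) n a ha).val * t ^ n =
      algebraMap (MvPolynomial ι ℂ) _ a := by
    rw [Away.val_mk, ht, ← map_pow, ← Localization.mk_one_eq_algebraMap,
      ← Localization.mk_one_eq_algebraMap, Localization.mk_mul, Localization.mk_eq_mk_iff,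
      Localization.r_iff_exists]
    refine ⟨1, ?_⟩
    simp
    ring
  rw [mul_comm, h1] at h8
  exact ((htu.pow n).mul_left_cancel h8).symm

/-- Two homomorphisms from the chart ring are equal if they agree on the constants and the
fractions `x_i / x_j`. -/
theorem away_hom_ext {B : Type*} [CommRing B] {j : ι} {φ ψ : Away (gr ι) (X j) →+* B}
    (h0 : φ.comp (cz _) = ψ.comp (cz _)) (h : ∀ i, φ (fr i j) = ψ (fr i j)) : φ = ψ := by
  ext z
  obtain ⟨a, rfl⟩ := exists_eval₂ j z
  have h1 := eval₂_comp_left φ (cz (X j)) (fun i => fr i j) a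
  have h2 := eval₂_comp_left ψ (cz (X j)) (fun i => fr i j) a
  have h3 : (φ ∘ fun i => fr i j) = ψ ∘ fun i => fr i j := funext h
  rw [h1, h2, h0, h3]

/-- The homomorphism from the ring of a chart. -/
noncomputable def awayHom {B : Type*} [CommRing B] (c : ℂ →+* B) (u : ι → B)
    (x : MvPolynomial ι ℂ) (hx : IsUnit (eval₂Hom c u x)) : Away (gr ι) x →+* B :=
  (IsLocalization.Away.lift (S := Localization.Away x) x hx).comp
    (algebraMap (Away (gr ι) x) (Localization.Away x))

theorem awayHom_cz {B : Type*} [CommRing B] (c : ℂ →+* B) (u : ι → B)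
    (x : MvPolynomial ι ℂ) (hx : IsUnit (eval₂Hom c u x)) (a : ℂ) :
    awayHom c u x hx (cz x a) = c a := by
  change IsLocalization.Away.lift (S := Localization.Away x) x hx (cz x a).val = _
  rw [val_cz, IsLocalization.Away.lift_eq]
  simp

theorem awayHom_mk {B : Type*} [CommRing B] (c : ℂ →+* B) (u : ι → B)
    (x : MvPolynomial ι ℂ) (hx : IsUnit (eval₂Hom c u x)) {d : ℕ} (hd : x ∈ gr ι d)
    (n : ℕ) (a : MvPolynomial ι ℂ) (ha : a ∈ gr ι (n • d)) :
    awayHom c u x hx (Away.mk (gr ι) hd n a ha) * eval₂Hom c u x ^ n = eval₂Hom c u a := by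
  have h1 : (Away.mk (gr ι) hd n a ha).val *
      algebraMap (MvPolynomial ι ℂ) (Localization.Away x) x ^ n =
      algebraMap (MvPolynomial ι ℂ) _ a := by
    rw [Away.val_mk, ← map_pow, ← Localization.mk_one_eq_algebraMap,
      ← Localization.mk_one_eq_algebraMap, Localization.mk_mul, Localization.mk_eq_mk_iff,
      Localization.r_iff_exists]
    refine ⟨1, ?_⟩
    simp
    ring
  have h2 := congrArg (IsLocalization.Away.lift (S := Localization.Away x) x hx) h1
  rw [map_mul, map_pow, IsLocalization.Away.lift_eq, IsLocalization.Away.lift_eq] at h2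
  exact h2

/-- The morphism to `Spec R` given by a homomorphism. -/
noncomputable def toSp {T : Scheme.{0}} {R : CommRingCat.{0}} (φ : R ⟶ Γ(T, ⊤)) : T ⟶ Spec R :=
  T.toSpecΓ ≫ Spec.map φ

theorem comp_toSp {T T' : Scheme.{0}} {R : CommRingCat.{0}} (g : T' ⟶ T) (φ : R ⟶ Γ(T, ⊤)) :
    g ≫ toSp φ = toSp (φ ≫ g.appTop) := by
  rw [toSp, toSp, Scheme.toSpecΓ_naturality_assoc, Spec.map_comp]

theorem toSp_map {T : Scheme.{0}} {R R' : CommRingCat.{0}} (φ : R ⟶ Γ(T, ⊤)) (ψ : R' ⟶ R) :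
    toSp φ ≫ Spec.map ψ = toSp (ψ ≫ φ) := by
  rw [toSp, toSp, Category.assoc, Spec.map_comp]

theorem toSp_appTop {T : Scheme.{0}} {R : CommRingCat.{0}} (φ : R ⟶ Γ(T, ⊤)) :
    (toSp φ).appTop = (Scheme.ΓSpecIso R).hom ≫ φ := by
  rw [toSp, Scheme.Hom.comp_appTop, Scheme.toSpecΓ_appTop, Scheme.ΓSpecIso_naturality]

theorem toSp_inv_appTop {T : Scheme.{0}} {R : CommRingCat.{0}} (φ : R ⟶ Γ(T, ⊤)) :
    (Scheme.ΓSpecIso R).inv ≫ (toSp φ).appTop = φ := by
  rw [toSp_appTop, Iso.inv_hom_id_assoc]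

theorem toSp_self {T : Scheme.{0}} {R : CommRingCat.{0}} (f : T ⟶ Spec R) :
    toSp ((Scheme.ΓSpecIso R).inv ≫ f.appTop) = f := by
  apply ext_of_isAffine
  rw [toSp_appTop, Iso.hom_inv_id_assoc]

theorem toSp_injective {T : Scheme.{0}} {R : CommRingCat.{0}} {φ ψ : R ⟶ Γ(T, ⊤)}
    (h : toSp φ = toSp ψ) : φ = ψ := by
  rw [← toSp_inv_appTop φ, h, toSp_inv_appTop]

theorem toSp_preimage {T : Scheme.{0}} {R : CommRingCat.{0}} (φ : R ⟶ Γ(T, ⊤)) (a : R) :
    toSp φ ⁻¹ᵁ PrimeSpectrum.basicOpen a = T.basicOpen (φ.hom a) := by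
  rw [← T.toSpecΓ_preimage_basicOpen]
  rfl

/-! ### The constants -/

/-- The constants. -/
noncomputable def cG {T : Scheme.{0}} (s : T ⟶ Spec (CommRingCat.of ℂ)) : ℂ →+* Γ(T, ⊤) :=
  ((Scheme.ΓSpecIso (CommRingCat.of ℂ)).inv ≫ s.appTop).hom

theorem toSp_cG {T : Scheme.{0}} (s : T ⟶ Spec (CommRingCat.of ℂ)) : toSp (CommRingCat.ofHom (cG s)) = s := by
  rw [cG, CommRingCat.ofHom_hom]
  exact toSp_self s

theorem appTop_cG {T T' : Scheme.{0}} (g : T' ⟶ T) (s : T ⟶ Spec (CommRingCat.of ℂ)) (c : ℂ) :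
    g.appTop.hom (cG s c) = cG (g ≫ s) c := by
  rw [cG, cG, Scheme.Hom.comp_appTop]
  rfl

/-! ### Morphisms to the chart -/


/-- The standard chart. -/
noncomputable def chartP (j : ι) : Spec (.of (Away (gr ι) (X j))) ⟶ Pj ι :=
  Proj.awayι (gr ι) (X j) (X_mem_gr j) one_pos

theorem open_chartP (j : ι) : IsOpenImmersion (chartP (ι := ι) j) :=
  inferInstanceAs (IsOpenImmersion (Proj.awayι (gr ι) (X j) (X_mem_gr j) one_pos))

attribute [local instance] open_chartP

/-- The open set `x_j ≠ 0`. -/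
noncomputable def DP (j : ι) : (Pj ι).Opens := Proj.basicOpen (gr ι) (X j)

theorem opensRange_chartP (j : ι) : (chartP (ι := ι) j).opensRange = DP j :=
  Proj.opensRange_awayι (gr ι) (X j) (X_mem_gr j) one_pos

theorem chartP_str (j : ι) :
    chartP j ≫ str ι = Spec.map (CommRingCat.ofHom (cz (X j))) := by
  have h1 := Proj.awayι_toSpecZero (gr ι) (X j) (X_mem_gr j) one_pos
  have h2 : chartP j ≫ str ι = (Proj.awayι (gr ι) (X j) (X_mem_gr j) one_pos ≫
      Proj.toSpecZero (gr ι)) ≫ Spec.map (CommRingCat.ofHom (algebraMap ℂ (gr ι 0))) := rfl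
  rw [h2, h1, ← Spec.map_comp]
  rfl

theorem toSp_chartP_str {T : Scheme.{0}} {j : ι}
    (φ : CommRingCat.of (Away (gr ι) (X j)) ⟶ Γ(T, ⊤)) :
    (toSp φ ≫ chartP j) ≫ str ι = toSp (CommRingCat.ofHom (cz (X j)) ≫ φ) := by
  rw [← toSp_map, Category.assoc]
  exact congrArg (toSp φ ≫ ·) (chartP_str j)

theorem isUnit_X {B : Type*} [CommRing B] (c : ℂ →+* B) (u : ι → B) {j : ι}
    (hu : u j = 1) : IsUnit (eval₂Hom c u (X j)) := by
  rw [coe_eval₂Hom, eval₂_X, hu]
  exact isUnit_one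

theorem awayHom_fr {B : Type*} [CommRing B] (c : ℂ →+* B) (u : ι → B) {j : ι}
    (hu : u j = 1) (i : ι) : awayHom c u (X j) (isUnit_X c u hu) (fr i j) = u i := by
  have h1 := awayHom_mk c u (X j) (isUnit_X c u hu) (X_mem_gr j) 1 (X i) (X_mem_gr' i)
  rw [coe_eval₂Hom, eval₂_X, eval₂_X, hu, one_pow, mul_one] at h1
  exact h1

/-- The morphism with the coordinates `u_0, …, u_m`, `u_j = 1`. -/
noncomputable def toP {T : Scheme.{0}} (s : T ⟶ Spec (CommRingCat.of ℂ)) (j : ι)
    (u : ι → Γ(T, ⊤)) (hu : u j = 1) : T ⟶ Pj ι :=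
  toSp (CommRingCat.ofHom (awayHom (cG s) u (X j) (isUnit_X _ u hu))) ≫ chartP j

theorem toP_str {T : Scheme.{0}} (s : T ⟶ Spec (CommRingCat.of ℂ)) (j : ι)
    (u : ι → Γ(T, ⊤)) (hu : u j = 1) : toP s j u hu ≫ str ι = s := by
  rw [toP, toSp_chartP_str, ← CommRingCat.ofHom_comp]
  have h1 : (awayHom (cG s) u (X j) (isUnit_X _ u hu)).comp (cz (X j)) = cG s := by
    ext c
    exact awayHom_cz (cG s) u (X j) (isUnit_X _ u hu) c
  rw [h1, toSp_cG]

theorem comp_toP {T T' : Scheme.{0}} (g : T' ⟶ T) (s : T ⟶ Spec (CommRingCat.of ℂ)) (j : ι)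
    (u : ι → Γ(T, ⊤)) (hu : u j = 1) :
    g ≫ toP s j u hu = toP (g ≫ s) j (fun i => g.appTop.hom (u i)) (by rw [hu, map_one]) := by
  rw [toP, toP, ← Category.assoc, comp_toSp]
  congr 2
  have h1 : (g.appTop.hom).comp (awayHom (cG s) u (X j) (isUnit_X _ u hu)) =
      awayHom (cG (g ≫ s)) (fun i => g.appTop.hom (u i)) (X j)
        (isUnit_X _ _ (by rw [hu, map_one])) := by
    refine away_hom_ext ?_ fun i => ?_
    · ext c
      rw [RingHom.comp_apply, RingHom.comp_apply, RingHom.comp_apply, awayHom_cz, awayHom_cz,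
        appTop_cG]
    · rw [RingHom.comp_apply, awayHom_fr _ _ hu, awayHom_fr _ (fun i => g.appTop.hom (u i))
        (by rw [hu, map_one])]
  rw [← h1]
  rfl

theorem toP_injective {T : Scheme.{0}} {s s' : T ⟶ Spec (CommRingCat.of ℂ)} {j : ι}
    {u u' : ι → Γ(T, ⊤)} {hu : u j = 1} {hu' : u' j = 1}
    (h : toP s j u hu = toP s' j u' hu') : u = u' := by
  rw [toP, toP, cancel_mono] at h
  have h1 := toSp_injective h
  have h2 : awayHom (cG s) u (X j) (isUnit_X _ u hu) =
      awayHom (cG s') u' (X j) (isUnit_X _ u' hu') := by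
    have := congrArg CommRingCat.Hom.hom h1
    exact this
  funext i
  rw [← awayHom_fr (cG s) u hu i, h2, awayHom_fr _ _ hu']

theorem toP_preimage {T : Scheme.{0}} (s : T ⟶ Spec (CommRingCat.of ℂ)) (j : ι)
    (u : ι → Γ(T, ⊤)) (hu : u j = 1) (i : ι) :
    toP s j u hu ⁻¹ᵁ DP i = T.basicOpen (u i) := by
  have h1 : chartP j ⁻¹ᵁ DP i = PrimeSpectrum.basicOpen (R := Away (gr ι) (X j))
      (Away.isLocalizationElem (X_mem_gr j) (X_mem_gr i)) :=
    Proj.awayι_preimage_basicOpen (gr ι) (X_mem_gr j) one_pos (X_mem_gr i) one_pos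
  have h2 : toP s j u hu ⁻¹ᵁ DP i =
      toSp (CommRingCat.ofHom (awayHom (cG s) u (X j) (isUnit_X _ u hu))) ⁻¹ᵁ
        (chartP j ⁻¹ᵁ DP i) := rfl
  rw [h2, h1]
  have h3 := toSp_preimage (CommRingCat.ofHom (awayHom (cG s) u (X j) (isUnit_X _ u hu)))
    (Away.isLocalizationElem (X_mem_gr j) (X_mem_gr i))
  refine h3.trans ?_
  have h4 := awayHom_mk (cG s) u (X j) (isUnit_X (cG s) u hu) (X_mem_gr j) 1 (X i ^ 1)
    (by rw [pow_one]; exact X_mem_gr' i)
  rw [coe_eval₂Hom, eval₂_X, hu, one_pow, mul_one, eval₂_pow, eval₂_X, pow_one (u i)] at h4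
  exact congrArg T.basicOpen h4

/-- A morphism to the chart is given by its coordinates. -/
theorem exists_toP {T : Scheme.{0}} (s : T ⟶ Spec (CommRingCat.of ℂ)) (q : T ⟶ Pj ι) (hq : q ≫ str ι = s)
    (j : ι) (hj : q ⁻¹ᵁ DP j = ⊤) :
    ∃ (u : ι → Γ(T, ⊤)) (hu : u j = 1), q = toP s j u hu := by
  have hrange : Set.range q ⊆ Set.range (chartP j) := by
    rintro _ ⟨t, rfl⟩
    have h1 : t ∈ q ⁻¹ᵁ DP j := by rw [hj]; trivial
    have h2 : q t ∈ (chartP j).opensRange := by rw [opensRange_chartP]; exact h1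
    exact h2
  set l := IsOpenImmersion.lift (chartP j) q hrange with hl
  have hlq : l ≫ chartP j = q := IsOpenImmersion.lift_fac _ _ _
  set ψ : CommRingCat.of (Away (gr ι) (X j)) ⟶ Γ(T, ⊤) :=
    (Scheme.ΓSpecIso _).inv ≫ l.appTop with hψ
  have hψl : toSp ψ = l := toSp_self l
  have hu : ψ.hom (fr j j) = 1 := by rw [fr_self, map_one]
  refine ⟨fun i => ψ.hom (fr i j), hu, ?_⟩
  rw [toP, ← hlq, ← hψl]
  congr 2
  have h1 : ψ.hom = awayHom (cG s) (fun i => ψ.hom (fr i j)) (X j)
      (isUnit_X _ (fun i => ψ.hom (fr i j)) hu) := by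
    refine away_hom_ext ?_ fun i => ?_
    · ext c
      rw [RingHom.comp_apply, RingHom.comp_apply, awayHom_cz]
      have h2 : toSp (CommRingCat.ofHom (cz (X j)) ≫ ψ) = s := by
        rw [← toSp_chartP_str, hψl, hlq, hq]
      have h3 : CommRingCat.ofHom (cz (X j)) ≫ ψ = CommRingCat.ofHom (cG s) :=
        toSp_injective (h2.trans (toSp_cG s).symm)
      have h4 := congrArg (fun f => f.hom c) h3
      exact h4
    · rw [awayHom_fr (cG s) (fun i => ψ.hom (fr i j)) hu]
  exact congrArg CommRingCat.ofHom h1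

/-- The change of the chart. -/
theorem toP_change {T : Scheme.{0}} (s : T ⟶ Spec (CommRingCat.of ℂ)) {j j' : ι}
    {u u' : ι → Γ(T, ⊤)} (hu : u j = 1) (hu' : u' j' = 1)
    (h : ∀ i, u j' * u' i = u i) : toP s j u hu = toP s j' u' hu' := by
  have hunit : IsUnit (u j') := IsUnit.of_mul_eq_one (u' j) (by rw [h, hu])
  set x : MvPolynomial ι ℂ := X j * X j' with hx
  have hx' : x = X j' * X j := by rw [hx, mul_comm]
  have hxu : IsUnit (eval₂Hom (cG s) u x) := by
    rw [hx, map_mul, coe_eval₂Hom, eval₂_X, eval₂_X, hu, one_mul]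
    exact hunit
  have hev : eval₂Hom (cG s) u x = u j' := by
    rw [hx, map_mul, coe_eval₂Hom, eval₂_X, eval₂_X, hu, one_mul]
  set χ := awayHom (cG s) u x hxu with hχ
  have h1 : χ.comp (awayMap (gr ι) (X_mem_gr j') hx) =
      awayHom (cG s) u (X j) (isUnit_X _ u hu) := by
    refine away_hom_ext ?_ fun i => ?_
    · ext c
      rw [RingHom.comp_apply, RingHom.comp_apply, RingHom.comp_apply, awayHom_cz]
      have h2 : awayMap (gr ι) (X_mem_gr j') hx (cz (X j) c) = cz x c :=
        awayMap_fromZeroRingHom _ _ _ _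
      rw [h2, hχ, awayHom_cz]
    · rw [RingHom.comp_apply, awayHom_fr _ _ hu, fr, awayMap_mk]
      have h2 := awayHom_mk (cG s) u x hxu (hx ▸ SetLike.mul_mem_graded (X_mem_gr j) (X_mem_gr j'))
        1 (X i * X j' ^ 1) (by
          rw [pow_one]
          exact SetLike.mul_mem_graded (X_mem_gr i) (X_mem_gr j'))
      rw [hev, pow_one (u j'), map_mul, map_pow, coe_eval₂Hom, eval₂_X, eval₂_X,
        pow_one (u j')] at h2
      exact hunit.mul_right_cancel h2
  have h1' : χ.comp (awayMap (gr ι) (X_mem_gr j) hx') =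
      awayHom (cG s) u' (X j') (isUnit_X _ u' hu') := by
    refine away_hom_ext ?_ fun i => ?_
    · ext c
      rw [RingHom.comp_apply, RingHom.comp_apply, RingHom.comp_apply, awayHom_cz]
      have h2 : awayMap (gr ι) (X_mem_gr j) hx' (cz (X j') c) = cz x c :=
        awayMap_fromZeroRingHom _ _ _ _
      rw [h2, hχ, awayHom_cz]
    · rw [RingHom.comp_apply, awayHom_fr _ _ hu', fr, awayMap_mk]
      have h2 := awayHom_mk (cG s) u x hxu (hx ▸ SetLike.mul_mem_graded (X_mem_gr j) (X_mem_gr j'))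
        1 (X i * X j ^ 1) (by
          rw [pow_one]
          exact SetLike.mul_mem_graded (X_mem_gr i) (X_mem_gr j))
      rw [hev, pow_one (u j'), map_mul, map_pow, coe_eval₂Hom, eval₂_X, eval₂_X, hu, one_pow,
        mul_one, ← h i, mul_comm (u j')] at h2
      exact hunit.mul_right_cancel h2
  have h3 := Proj.SpecMap_awayMap_awayι (gr ι) (X_mem_gr j) one_pos (X_mem_gr j') hx
  have h3' := Proj.SpecMap_awayMap_awayι (gr ι) (X_mem_gr j') one_pos (X_mem_gr j) hx'
  have h4 : toP s j u hu = toSp (CommRingCat.ofHom χ) ≫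
      Spec.map (CommRingCat.ofHom (awayMap (gr ι) (X_mem_gr j') hx)) ≫ chartP j := by
    rw [toP, ← h1, ← Category.assoc, toSp_map, ← CommRingCat.ofHom_comp]
  have h4' : toP s j' u' hu' = toSp (CommRingCat.ofHom χ) ≫
      Spec.map (CommRingCat.ofHom (awayMap (gr ι) (X_mem_gr j) hx')) ≫ chartP j' := by
    rw [toP, ← h1', ← Category.assoc, toSp_map, ← CommRingCat.ofHom_comp]
  rw [h4, h4']
  congr 1
  exact h3.trans h3'.symm

/-- The charts cover the projective space. -/
theorem exists_mem_DP (x : Pj ι) : ∃ j, x ∈ DP j := by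
  have h1 : ⨆ j, Proj.basicOpen (gr ι) (X j) = ⊤ := by
    refine Proj.iSup_basicOpen_eq_top' (gr ι) (fun j => X j) (fun j => ⟨1, X_mem_gr j⟩) ?_
    rw [eq_top_iff]
    rintro p -
    induction p using MvPolynomial.induction_on with
    | C a =>
      have h2 : (C a : MvPolynomial ι ℂ) =
          algebraMap (gr ι 0) (MvPolynomial ι ℂ) (algebraMap ℂ (gr ι 0) a) := rfl
      rw [h2]
      exact Subalgebra.algebraMap_mem _ _
    | add p q hp hq => exact add_mem hp hq
    | mul_X p i hp => exact mul_mem hp (Algebra.subset_adjoin ⟨i, rfl⟩)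
  have h2 : x ∈ (⨆ j, Proj.basicOpen (gr ι) (X j) : (Proj (gr ι)).Opens) := by
    rw [h1]
    trivial
  exact TopologicalSpace.Opens.mem_iSup.1 h2

section ToK

variable {X : Scheme.{0}} [IsIntegral X]

theorem gen_mem_of_nonempty (U : X.Opens) (hU : (U : Set X).Nonempty) : genericPoint X ∈ U := by
  obtain ⟨x, hx⟩ := hU
  exact (genericPoint_spec X).specializes trivial |>.mem_open U.isOpen hx

theorem gen_mem_image {U : X.Opens} (hU : genericPoint X ∈ U) :
    genericPoint X ∈ U.ι ''ᵁ ⊤ := by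
  rw [Scheme.Opens.ι_image_top]; exact hU

/-- The rational function given by a function on an open set. -/
noncomputable def toKU (U : X.Opens) (hU : genericPoint X ∈ U) :
    Γ(U.toScheme, ⊤) →+* X.functionField :=
  (X.presheaf.germ (U.ι ''ᵁ ⊤) (genericPoint X) (gen_mem_image hU)).hom

/-- The rational function given by a section over an open set. -/
noncomputable def germK (U : X.Opens) (hU : genericPoint X ∈ U) :
    Γ(X, U) →+* X.functionField :=
  (X.presheaf.germ U (genericPoint X) hU).hom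

theorem toKU_topIso_inv (U : X.Opens) (hU : genericPoint X ∈ U) (a : Γ(X, U)) :
    toKU U hU (U.topIso.inv.hom a) = germK U hU a := by
  rw [toKU, germK, Scheme.Opens.topIso_inv]
  exact X.presheaf.germ_res_apply _ _ _ _

theorem toKU_eq (U : X.Opens) (hU : genericPoint X ∈ U) (a : Γ(U.toScheme, ⊤)) :
    toKU U hU a = germK U hU (U.topIso.hom.hom a) := by
  rw [← toKU_topIso_inv]
  congr 1
  have := congrArg (fun f => f.hom a) U.topIso.hom_inv_id
  exact this.symm

theorem toKU_homOfLE {U V : X.Opens} (h : U ≤ V) (hU : genericPoint X ∈ U)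
    (a : Γ(V.toScheme, ⊤)) :
    toKU U hU ((X.homOfLE h).appTop.hom a) = toKU V (h hU) a := by
  rw [toKU, toKU, Scheme.homOfLE_appTop]
  exact X.presheaf.germ_res_apply _ _ _ _

theorem toKU_ι (U : X.Opens) (hU : genericPoint X ∈ U) (a : Γ(X, ⊤)) :
    toKU U hU (U.ι.appTop.hom a) = X.presheaf.germ ⊤ (genericPoint X) trivial a := by
  rw [toKU, Scheme.Opens.ι_appTop]
  exact X.presheaf.germ_res_apply _ _ _ _

theorem toKU_injective (U : X.Opens) (hU : genericPoint X ∈ U) :
    Function.Injective (toKU U hU) := by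
  have : Nonempty (U.ι ''ᵁ ⊤ : X.Opens) := ⟨⟨_, gen_mem_image hU⟩⟩
  exact Scheme.germToFunctionField_injective X (U.ι ''ᵁ ⊤)

end ToK

section Charts

variable {X : Scheme.{0}} [IsIntegral X]
  (i : X ⟶ Pj ι) (s : X ⟶ Spec (CommRingCat.of ℂ)) (hs : i ≫ str ι = s)

/-- The chart. -/
noncomputable def ch (j : ι) : X.Opens := i ⁻¹ᵁ DP j

theorem exists_mem_ch (x : X) : ∃ j, x ∈ ch i j := exists_mem_DP (i x)

theorem preimage_ch (j : ι) : ((ch i j).ι ≫ i) ⁻¹ᵁ DP j = ⊤ := by
  rw [Scheme.Hom.comp_preimage]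
  exact Scheme.Opens.ι_preimage_self (ch i j)

include hs in
theorem exists_coord (j : ι) : ∃ (u : ι → Γ((ch i j).toScheme, ⊤))
    (hu : u j = 1), (ch i j).ι ≫ i = toP ((ch i j).ι ≫ s) j u hu :=
  exists_toP ((ch i j).ι ≫ s) ((ch i j).ι ≫ i) (by rw [Category.assoc, hs]) j (preimage_ch i j)

/-- The coordinates on the chart. -/
noncomputable def coord (j : ι) : ι → Γ((ch i j).toScheme, ⊤) :=
  (exists_coord i s hs j).choose

theorem coord_self (j : ι) : coord i s hs j j = 1 :=
  (exists_coord i s hs j).choose_spec.choose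

theorem coord_spec (j : ι) :
    (ch i j).ι ≫ i = toP ((ch i j).ι ≫ s) j (coord i s hs j) (coord_self i s hs j) :=
  (exists_coord i s hs j).choose_spec.choose_spec

/-- The change of the chart. -/
theorem coord_change {T : Scheme.{0}} (j j' : ι) (g : T ⟶ (ch i j).toScheme)
    (g' : T ⟶ (ch i j').toScheme) (hg : g ≫ (ch i j).ι = g' ≫ (ch i j').ι) (l : ι) :
    g.appTop.hom (coord i s hs j j') * g'.appTop.hom (coord i s hs j' l) =
      g.appTop.hom (coord i s hs j l) := by
  set q : T ⟶ Pj ι := g ≫ (ch i j).ι ≫ i with hq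
  have hq' : q = g' ≫ (ch i j').ι ≫ i := by
    rw [hq, ← Category.assoc, hg, Category.assoc]
  have hstr : g ≫ (ch i j).ι ≫ s = g' ≫ (ch i j').ι ≫ s := by
    rw [← Category.assoc, hg, Category.assoc]
  have h1 : q = toP (g ≫ (ch i j).ι ≫ s) j (fun l => g.appTop.hom (coord i s hs j l))
      (by rw [coord_self, map_one]) := by
    rw [hq, coord_spec i s hs j, comp_toP]
  have h2 : q = toP (g ≫ (ch i j).ι ≫ s) j' (fun l => g'.appTop.hom (coord i s hs j' l))
      (by rw [coord_self, map_one]) := by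
    rw [hq', coord_spec i s hs j', comp_toP]
    congr 1
    exact hstr.symm
  -- the coordinate is a unit
  have h3 : T.basicOpen (g.appTop.hom (coord i s hs j j')) = ⊤ := by
    have h4 := toP_preimage (g ≫ (ch i j).ι ≫ s) j (fun l => g.appTop.hom (coord i s hs j l))
      (by rw [coord_self, map_one]) j'
    rw [← h4, ← h1, hq', Scheme.Hom.comp_preimage, preimage_ch]
    rfl
  have hunit : IsUnit (g.appTop.hom (coord i s hs j j')) := by
    refine RingedSpace.isUnit_of_isUnit_germ T.toRingedSpace ⊤ _ fun x hx => ?_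
    have hx' : x ∈ T.basicOpen (g.appTop.hom (coord i s hs j j')) := by rw [h3]; trivial
    exact (Scheme.mem_basicOpen _ _ x hx).1 hx'
  obtain ⟨w, hw⟩ := hunit
  let u'' : ι → Γ(T, ⊤) := fun l => (w⁻¹ : (Γ(T, ⊤))ˣ) * g.appTop.hom (coord i s hs j l)
  have hu'' : u'' j' = 1 := by
    change (w⁻¹ : (Γ(T, ⊤))ˣ) * g.appTop.hom (coord i s hs j j') = 1
    rw [← hw, Units.inv_mul]
  have h5 := toP_change (g ≫ (ch i j).ι ≫ s) (j := j) (j' := j')
    (u := fun l => g.appTop.hom (coord i s hs j l)) (u' := u'')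
    (by rw [coord_self, map_one]) hu'' (fun l => by
      change g.appTop.hom (coord i s hs j j') *
        ((w⁻¹ : (Γ(T, ⊤))ˣ) * g.appTop.hom (coord i s hs j l)) = _
      rw [← hw, Units.mul_inv_cancel_left])
  have h6 := toP_injective ((h5.symm.trans h1.symm).trans h2)
  have h7 := congrFun h6 l
  rw [← h7]
  change g.appTop.hom (coord i s hs j j') *
        ((w⁻¹ : (Γ(T, ⊤))ˣ) * g.appTop.hom (coord i s hs j l)) = _
  rw [← hw, Units.mul_inv_cancel_left]

/-- The coordinates as rational functions. -/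
noncomputable def kap (j : ι) (hj : genericPoint X ∈ ch i j) (l : ι) :
    X.functionField := toKU (ch i j) hj (coord i s hs j l)

theorem kap_self (j : ι) (hj : genericPoint X ∈ ch i j) : kap i s hs j hj j = 1 := by
  rw [kap, coord_self, map_one]

theorem kap_mul (j j' : ι) (hj : genericPoint X ∈ ch i j)
    (hj' : genericPoint X ∈ ch i j') (l : ι) :
    kap i s hs j hj j' * kap i s hs j' hj' l = kap i s hs j hj l := by
  let U : X.Opens := ch i j ⊓ ch i j'
  have hU : genericPoint X ∈ U := ⟨hj, hj'⟩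
  have h1 := coord_change i s hs j j' (X.homOfLE (inf_le_left : U ≤ ch i j))
    (X.homOfLE (inf_le_right : U ≤ ch i j')) (by rw [Scheme.homOfLE_ι, Scheme.homOfLE_ι]) l
  have h2 := congrArg (toKU U hU) h1
  rw [map_mul, toKU_homOfLE, toKU_homOfLE, toKU_homOfLE] at h2
  exact h2

/-- The basic open subset of the chart. -/
theorem basicOpen_coord (j l : ι) :
    X.basicOpen ((ch i j).topIso.hom.hom (coord i s hs j l)) = ch i j ⊓ ch i l := by
  have h1 := toP_preimage ((ch i j).ι ≫ s) j (coord i s hs j) (coord_self i s hs j) l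
  rw [← coord_spec i s hs j, Scheme.Hom.comp_preimage] at h1
  have h2 := Scheme.Opens.ι_image_basicOpen_topIso_inv (ch i j)
    ((ch i j).topIso.hom.hom (coord i s hs j l))
  have h3 : (ch i j).topIso.inv.hom ((ch i j).topIso.hom.hom (coord i s hs j l)) =
      coord i s hs j l := congrArg (fun f => f.hom (coord i s hs j l)) (ch i j).topIso.hom_inv_id
  rw [← h2]
  have h4 : (ch i j).toScheme.basicOpen ((ch i j).topIso.inv.hom
      ((ch i j).topIso.hom.hom (coord i s hs j l))) =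
      (ch i j).toScheme.basicOpen (coord i s hs j l) := by rw [h3]
  refine (congrArg (fun V => (ch i j).ι ''ᵁ V) (h4.trans h1.symm)).trans ?_
  change (ch i j).ι ''ᵁ ((ch i j).ι ⁻¹ᵁ (ch i l)) = _
  rw [Scheme.Hom.image_preimage_eq_opensRange_inf, Scheme.Opens.opensRange_ι]

end Charts

end Vale.Agent.P297L
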